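import Vale.Agent.P241GR.M
import Vale.Agent.P241Z.Main

/-!
# P241G, final assembly: the properties of the functors `X ↦ K ⊗ Φ^V X`
-/

open CategoryTheory MonoidalCategory Limits

noncomputable section

namespace Vale.Agent.P241GZ

open P251.H P251.St P241.St P241GA P241GA.GIn P241GR
open P241Z (GFin fixM)

universe v' u u'

variable {G : Type} [Group G] [Finite G]

/-- a `G`-map as a morphism of `LG G` -/
def gm {X Y : GFin G} (f : X ⟶ Y) : gl X.sp ⟶ gl Y.sp :=
  glMap (toHom f.1) ((P241.Geo.isGMap_iff (toHom f.1)).mp f.2)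

variable {M : Type u} [Category.{0} M] [MonoidalCategory M] [SymmetricCategory M]
  [MonoidalClosed M] [HasZeroMorphisms M] [HasColimitsOfSize.{0, 0} M] [GIn G M]
  {C : Type u'} [Category.{v'} C] [Preadditive C] (Q : M ⥤ C) (p : ℕ)

/-- `l` is a `p`-local isomorphism on the maps out of finite objects -/
def FI {B B' : C} (l : B ⟶ B') : Prop :=
  ∀ (n : ℕ) (K : GSpace G), GFC G K → SIso p (Q.obj ((TF M n).obj (gl K))) l

/-- the properties of `Θ = K ⊗ Φ^V -` -/
structure Tst {T : SHCat} (S : Susp T) (V : Subgroup G) (K : T.C) (Θ : M ⥤ T.C) : Prop where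
  key : ∀ {X Y : M} (f : X ⟶ Y), FI Q p (Q.map f) → IsIso (Θ.map f)
  sh : ∀ X : M, IsZero (Θ.obj ((ihom (F : M)).obj X)) ↔ IsZero (Θ.obj X)
  fix : ∃ θ : ∀ X : GFin G, K ⊗ S.obj (X.sp.fix V) ≅ Θ.obj ((JG M).obj (gl X.sp)),
    ∀ (X Y : GFin G) (f : X ⟶ Y),
      K ◁ S.map (fixM f V) ≫ (θ Y).hom = (θ X).hom ≫ Θ.map ((JG M).map (gm f))

end Vale.Agent.P241GZ
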