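import Vale.Agent.P241GD.A2
import Vale.Agent.P241GC.Main
import Vale.Agent.P241GQ.P2
import Vale.Agent.P241GW.D1
import Vale.Agent.P241GG.Main
import Vale.Agent.P241GF.C5
import Vale.Agent.P241GF.G1b

/-!
# P241G, final assembly, steps (0) and (1): the functors `K ⊗ Φ^V -` on the localization
-/

open CategoryTheory MonoidalCategory Limits

noncomputable section

namespace Vale.Agent.P241GZ

open P251.St P251CX P241.St P241GX P241GA P241GA.GIn P241GR
open P251.H.GS.StabInput (piW)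
open P251.S (IsCpt)
open P241Y (PLocal)

universe v' u u'

section

variable {C : Type u'} [Category.{v'} C] [Preadditive C] {p : ℕ} {W : C}

theorem sIso_id (B : C) : SIso p W (𝟙 B) :=
  ⟨fun y => ⟨1, y, Nat.coprime_one_left p, by rw [Category.comp_id, one_smul]⟩,
    fun x hx => ⟨1, Nat.coprime_one_left p, by rw [one_smul, ← hx, Category.comp_id]⟩⟩

theorem sIso_conj {A B B' A' : C} {l : B ⟶ B'} (h : SIso p W l) (a : A ≅ B) (b : B' ≅ A') :
    SIso p W (a.hom ≫ l ≫ b.hom) := by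
  refine ⟨fun y => ?_, fun x hx => ?_⟩
  · obtain ⟨m, x, hm, hx⟩ := h.1 (y ≫ b.inv)
    refine ⟨m, x ≫ a.inv, hm, ?_⟩
    rw [Category.assoc, Iso.inv_hom_id_assoc, reassoc_of% hx, Preadditive.nsmul_comp,
      Category.assoc, Iso.inv_hom_id, Category.comp_id]
  · obtain ⟨m, hm, h1⟩ := h.2 (x ≫ a.hom) (by
      rw [← cancel_mono b.hom, Category.assoc, Category.assoc, hx, zero_comp])
    refine ⟨m, hm, ?_⟩
    rw [← cancel_mono a.hom, Preadditive.nsmul_comp, h1, zero_comp]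

end

variable {G : Type} [Group G] [Finite G] {M : Type u} [Category.{0} M] [MonoidalCategory M]
  [SymmetricCategory M] [MonoidalClosed M] [HasZeroMorphisms M] [HasColimitsOfSize.{0, 0} M]
  [GIn G M] {o : M ⥤ Action OSp G} (D : Dict o)

include D

/-- **Step (0).** -/
theorem loc [o.Full] [o.Faithful] (hs : Function.Surjective o.obj) :
    (o ⋙ (eqW G).Q).IsLocalization (piW (GG M)) := by
  have : o.IsEquivalence :=
    { essSurj := ⟨fun Y => by
        obtain ⟨X, rfl⟩ := hs Y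
        exact ⟨X, ⟨Iso.refl _⟩⟩⟩ }
  refine Functor.IsLocalization.of_equivalence_source (eqW G).Q (eqW G) (o ⋙ (eqW G).Q)
    (piW (GG M)) o.asEquivalence.symm ?_ (fun X Y f hf => ?_)
    ((Functor.associator _ _ _).symm ≪≫ Functor.isoWhiskerRight o.asEquivalence.counitIso _ ≪≫
      Functor.leftUnitor _)
  · intro X Y f hf
    obtain ⟨X, rfl⟩ := hs X
    obtain ⟨Y, rfl⟩ := hs Y
    obtain ⟨f, rfl⟩ := o.map_surjective f
    exact ⟨X, Y, f, (P241GW.d1 M o D X Y f).1 hf,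
      ⟨Arrow.isoOfNatIso o.asEquivalence.unitIso (Arrow.mk f)⟩⟩
  · exact Localization.inverts (eqW G).Q (eqW G) _ ((P241GW.d1 M o D X Y f).2 hf)

variable {C : Type u'} [Category.{v'} C] (Q : M ⥤ C) [Q.IsLocalization (piW (GG M))]
  [Preadditive C] [HasCoproducts.{0} C] {V : Subgroup G} (P : PhiF V) {T : SHCat} {S : Susp T}
  (I : P241L.IsSH (P241L.fg T S)) {p : ℕ} (hp : p.Prime) {K : T.C} (hK : PLocal p K)

include hp hK

theorem key {X Y : M} (f : X ⟶ Y) (h : ∀ W, IsCpt W → SIso p W (Q.map f)) :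
    IsIso ((o ⋙ P.Φ ⋙ LI I ⋙ tensorLeft K).map f) := by
  have c1 := P241GC.c1 M
  have a2 := P241GD.a2 (GG M) Q
  obtain ⟨h1, h2⟩ := P241GQ.p2 M o D V P p X Y f fun a j =>
    P241GF.c5 c1 (P241GD.a1 (GG M) Q) a2 p X Y f a _ (.cell V j)
      (h _ (a2.cpt (c1.src a _ (P241.H32.gfc_line (.cell V j))) (finFactor_pw M a _)))
  exact P241GF.g1b T p hp K hK _ _ _ (P241GG.g1a I p _ _ _ h1 h2)

/-- **Step (1).** -/
theorem psi : ∃ Ψ : C ⥤ T.C, Nonempty (Q ⋙ Ψ ≅ o ⋙ P.Φ ⋙ LI I ⋙ tensorLeft K) ∧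
    ∀ (B B' : C) (l : B ⟶ B'), (∀ W, IsCpt W → SIso p W l) → IsIso (Ψ.map l) := by
  have hi : (piW (GG M)).IsInvertedBy (o ⋙ P.Φ ⋙ LI I ⋙ tensorLeft K) := fun X Y f hf => by
    have := Localization.inverts Q (piW (GG M)) f hf
    refine key D Q P I hp hK f fun W _ => ?_
    have h := sIso_conj (sIso_id (p := p) (W := W) (Q.obj X)) (Iso.refl _) (asIso (Q.map f))
    rwa [Iso.refl_hom, Category.id_comp, Category.id_comp] at h
  have w := Localization.fac _ hi Q
  refine ⟨_, ⟨w⟩, fun B B' l h => ?_⟩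
  have := Localization.essSurj Q (piW (GG M))
  let a := Q.objObjPreimageIso B
  let b := Q.objObjPreimageIso B'
  obtain ⟨Z, f, s, hs, hf⟩ := (P241GD.a1 (GG M) Q).frac _ _ (a.hom ≫ l ≫ b.inv)
  have := Localization.inverts Q (piW (GG M)) s hs
  have e : Q.map f = a.hom ≫ l ≫ (b.symm ≪≫ asIso (Q.map s)).hom := by
    rw [← hf, Category.assoc, Category.assoc]
    rfl
  have h1 := key D Q P I hp hK f fun W hW => e ▸ sIso_conj (h W hW) a _
  have h2 : IsIso ((Localization.lift _ hi Q).map (Q.map f)) :=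
    (NatIso.isIso_map_iff w f).2 h1
  rw [e, Functor.map_comp, Functor.map_comp, isIso_comp_left_iff, isIso_comp_right_iff] at h2
  exact h2

end Vale.Agent.P241GZ
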