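import Vale.Agent.P241GZ.Defs
import Vale.Agent.P241GH.En
import Vale.Agent.P241GG.J2
import Vale.Agent.P241GB.Nee
import Vale.Agent.P241GF.C5

/-!
# P241G, final assembly, step (4), upper half: compact `p`-local objects give finite `G`-spaces
-/

open CategoryTheory MonoidalCategory Limits Pretriangulated OnePoint

noncomputable section

namespace Vale.Agent.P241GZ

open P251.St P251CX P241.St P241GX P241GA P241GA.GIn P241GR
open P251.S (IsCpt)
open P251.G.LC (app)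
open P241Z (GFin fixM fixM_spec lineF)
open P241Y (PLocal)
open P241.Geo (xt)
open P093.PLoc

universe v' u u'

/-- the algebraic part -/
theorem alg {T : SHCat} {C : Type u'} [Category.{v'} C] [Preadditive C] (Ψ : C ⥤ T.C) {p m : ℕ}
    (hm : m.Coprime p) {W : T.C} (hW : IsPLocal p W) {A B B' : C} (l : B ⟶ B') (i : A ⟶ B')
    (r : B' ⟶ A) (hir : i ≫ r = 𝟙 A) [IsIso (Ψ.map l)] (u : B ⟶ B) (hu : u ≫ l = m • (l ≫ r ≫ i))
    (η : W ≅ Ψ.obj B) (a : W ⟶ W) (ha : a ≫ η.hom = η.hom ≫ Ψ.map u)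
    (hb : ((m : ℤ) • 𝟙 W) ≫ η.hom = η.hom ≫ Ψ.map (m • 𝟙 B)) :
    IsIso ((m : ℤ) • 𝟙 W - a) ↔ IsZero (Ψ.obj A) := by
  let ζ : W ≅ Ψ.obj B' := η ≪≫ asIso (Ψ.map l)
  let ε : W ⟶ W := ζ.hom ≫ Ψ.map (r ≫ i) ≫ ζ.inv
  have h0 : Ψ.map (r ≫ i) ≫ Ψ.map (r ≫ i) = Ψ.map (r ≫ i) := by
    rw [← Ψ.map_comp, Category.assoc, reassoc_of% hir]
  have h1 : ε ≫ ε = ε := by
    simp only [ε, Category.assoc, Iso.inv_hom_id_assoc, reassoc_of% h0]
  have h2 : u ≫ l = (m • 𝟙 B) ≫ l ≫ r ≫ i := by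
    rw [hu, Preadditive.nsmul_comp, Category.id_comp]
  have h3 : a = (m : ℤ) • ε := by
    rw [← zsmul_id_comp, ← cancel_mono ζ.hom]
    simp only [ε, Category.assoc, Iso.inv_hom_id, Category.comp_id]
    simp only [ζ, Iso.trans_hom, asIso_hom, Category.assoc]
    rw [reassoc_of% ha, reassoc_of% hb, ← Ψ.map_comp, h2, Ψ.map_comp, Ψ.map_comp]
  rw [h3, P241Z.isIso_sub_iff hW hm h1, IsZero.iff_id_eq_zero]
  constructor
  · intro h
    have h4 : Ψ.map (r ≫ i) = 0 := by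
      rw [← cancel_epi ζ.hom, ← cancel_mono ζ.inv, Category.assoc, comp_zero, zero_comp]
      exact h
    rw [← Ψ.map_id, ← Category.id_comp (𝟙 A), ← hir, Category.assoc, ← Category.assoc r,
      Ψ.map_comp, Ψ.map_comp, h4, zero_comp, comp_zero]
  · intro h
    simp only [ε]
    rw [Ψ.map_comp, ← Category.comp_id (Ψ.map r), h, comp_zero, zero_comp, zero_comp, comp_zero]

variable {G : Type} [Group G] [Finite G] {M : Type u} [Category.{0} M] [MonoidalCategory M]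
  [SymmetricCategory M] [MonoidalClosed M] [HasZeroMorphisms M] [HasColimitsOfSize.{0, 0} M]
  [GIn G M] {C : Type u'} [Category.{v'} C] {Q : M ⥤ C} [Preadditive C] [HasZeroObject C]
  [HasShift C ℤ] [∀ n : ℤ, (shiftFunctor C n).Additive] [Pretriangulated C] [IsTriangulated C]
  [HasCoproducts.{0} C]

/-- a morphism of `LG G` as a `G`-map -/
def mg {X Y : GFin G} (f : gl X.sp ⟶ gl Y.sp) : X ⟶ Y :=
  ⟨ofHom f.hom, (P241.Geo.isGMap_iff f.hom).mpr (eqv_hom f)⟩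

omit [Finite G] in
theorem app_wl (K : GSpace G) (d : Map Rr Rr) (x : K.und.Pt) (y : Rr.Pt) :
    app (P241.Geo.wl K (toHom d)) (smash x y) = smash x (d.toFun y) := by
  have hp : ∀ (a : K.und.Pt) (b : Rr.Pt),
      app (P241.Geo.pt K Rr).hom (P251.G.LC.smash a b) = smash a b := by
    intro a b
    induction a using OnePoint.rec with
    | infty => exact P251.G.LC.app_infty _
    | coe a =>
      induction b using OnePoint.rec with
      | infty => exact P251.G.LC.app_infty _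
      | coe b => rfl
  have h := congrArg (fun k => app k (P251.G.LC.smash x y)) (P241.Geo.pt_wl K (toHom d))
  simp only [P251.G.LC.app_comp] at h
  rw [hp, P251.G.LC.app_whiskerLeft_smash, hp] at h
  exact h

/-- **Step (4), upper half.** -/
theorem upper [Q.EssSurj] (c2 : C2 Q) (c3 : C3' Q) (c4 : C4 Q) (a2 : A2 (GG M) Q) (p4 : P4 G)
    {o : M ⥤ Action OSp G} (D : Dict o) {p : ℕ} (hp : p.Prime) {T : SHCat} (S : Susp T)
    (I : P241L.IsSH (P241L.fg T S)) (A : (PL (C := C) p).FullSubcategory) (hA : Cp A) :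
    ∃ Z : GSpace G, GFC G Z ∧ ∀ (V : Subgroup G) (P : PhiF V) (K : T.C) (Ψ : C ⥤ T.C),
      PLocal p K → Nonempty (Q ⋙ Ψ ≅ o ⋙ P.Φ ⋙ LI I ⋙ tensorLeft K) →
        (∀ (B B' : C) (l : B ⟶ B'), (∀ W, IsCpt W → SIso p W l) → IsIso (Ψ.map l)) →
          (IsZero (Ψ.obj A.obj) ↔ IsZero (K ⊗ S.obj (Z.fix V))) := by
  obtain ⟨B, B', l, i, r, hB, hir, hl⟩ := P241GB.b3 p hp _ _ _ c4 A hA
  obtain ⟨m, u, hm, hu⟩ := (hl B (c4.cpt hB)).1 (l ≫ r ≫ i)
  obtain ⟨n, K₀, f, θ, hK₀, hf⟩ := c3 B hB u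
  obtain ⟨d, hd⟩ := P241Z.exists_isDeg m
  obtain ⟨E, hE1, -, -, hE2, hE3⟩ := P241GH.en c2
  obtain ⟨e⟩ := hE1 n
  let X : GFin G := (⟨K₀, hK₀⟩ : GFin G).prod (lineF G)
  obtain ⟨Z, hZ, h1⟩ := P241Z.exists_cone S X (mg f) m
  refine ⟨Z, hZ, fun V P K Ψ hK ⟨w⟩ h2 => ?_⟩
  obtain ⟨τ, hτ⟩ := P241GG.j2 D P I
  have := h2 _ _ _ (hE2 n p _ _ l hl)
  have : IsIso ((E n ⋙ Ψ).map l) := this
  let η : K ⊗ S.obj (X.sp.fix V) ≅ (E n ⋙ Ψ).obj B :=
    whiskerLeftIso K (τ X.sp X.gfc) ≪≫ (w.app ((JG M).obj (gl X.sp))).symm ≪≫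
      Ψ.mapIso (e.app (gl X.sp)).symm ≪≫ (E n ⋙ Ψ).mapIso θ.symm
  have key : ∀ (g : gl X.sp ⟶ gl X.sp) (v : B ⟶ B), v ≫ θ.hom = θ.hom ≫ Q.map ((TF M n).map g) →
      K ◁ S.map (fixM (mg g) V) ≫ η.hom = η.hom ≫ (E n ⋙ Ψ).map v := by
    intro g v hv
    have e1 := congrArg (K ◁ ·) (hτ _ _ X.gfc X.gfc g (fixM (mg g) V) (fixM_spec (mg g) V))
    simp only [MonoidalCategory.whiskerLeft_comp] at e1
    have e2 := w.inv.naturality ((JG M).map g)
    have e3 := congrArg Ψ.map (e.inv.naturality g)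
    rw [Ψ.map_comp, Ψ.map_comp] at e3
    have e4 := congrArg (E n ⋙ Ψ).map
      (show Q.map ((TF M n).map g) ≫ θ.inv = θ.inv ≫ v by
        rw [Iso.comp_inv_eq, Category.assoc, hv, Iso.inv_hom_id_assoc])
    rw [Functor.map_comp, Functor.map_comp] at e4
    refine (Category.assoc _ _ _).symm.trans ((congrArg (· ≫ _) e1).trans ?_)
    refine (Category.assoc _ _ _).trans (Eq.trans (congrArg (_ ≫ ·) ?_)
      (Category.assoc _ _ _).symm)
    refine (Category.assoc _ _ _).symm.trans ((congrArg (· ≫ _) e2).trans ?_)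
    refine (Category.assoc _ _ _).trans (Eq.trans (congrArg (_ ≫ ·) ?_)
      (Category.assoc _ _ _).symm)
    refine (Category.assoc _ _ _).symm.trans ((congrArg (· ≫ _) e3).trans ?_)
    refine (Category.assoc _ _ _).trans (Eq.trans (congrArg (_ ≫ ·) ?_)
      (Category.assoc _ _ _).symm)
    exact e4
  have h3 := key (gwl K₀ (toHom d)) (m • 𝟙 B) (by
    rw [P241GF.map_gwl a2 n K₀ hd, Preadditive.nsmul_comp, Preadditive.comp_nsmul,
      Category.id_comp, Category.comp_id])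
  have h4 : S.map (fixM (mg (X := X) (Y := X) (gwl K₀ (toHom d))) V) = (m : ℤ) • 𝟙 _ :=
    P241Z.fixF_deg S V hd ⟨K₀, hK₀⟩ (mg (X := X) (Y := X) (gwl K₀ (toHom d))) fun x y =>
      app_wl K₀ d x y
  rw [h4, whiskerLeft_zsmul, MonoidalCategory.whiskerLeft_id] at h3
  have h5 := alg (E n ⋙ Ψ) hm (IsPLocal.tensor_right hK _) l i r hir u hu η _ (key f u hf) h3
  have h6 : K ◁ ((m : ℤ) • 𝟙 (S.obj (X.sp.fix V)) - S.map (fixM (mg f) V)) =
      (m : ℤ) • 𝟙 _ - K ◁ S.map (fixM (mg f) V) := by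
    refine ((tensorLeft K).map_sub).trans ?_
    change K ◁ _ - K ◁ _ = _
    rw [whiskerLeft_zsmul, MonoidalCategory.whiskerLeft_id]
  rw [← P241Z.acyclic_iff, h1 V K, h6, h5]
  exact (hE3 o D p4 V P T S I K Ψ (fun X => ⟨w.app X⟩) n A.obj).symm

end Vale.Agent.P241GZ
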