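import Vale.Agent.P241GZ.Key
import Vale.Agent.P241GZ.Up
import Vale.Agent.P241GH.Lo
import Vale.Agent.P241GF.C4
import Vale.Agent.P241GE.C3
import Vale.Agent.P241GI.Main
import Vale.Agent.P241GK.Top
import Vale.Agent.P241GP.P1
import Vale.Agent.P241GP.P4
import Vale.Agent.P241CB.Top

/-!
# P241G: the chromatic Smith theorem for genuine `G`-spectra
-/

open CategoryTheory MonoidalCategory Limits

noncomputable section

namespace Vale.Agent.P241GZ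

open P251.St P251CX P241.St P241GX P241GA P241GA.GIn P241GR
open P251.S (IsCpt)
open P241Y (PLocal ell)
open P241L (fg Rg rA rG Morava)

variable {G : Type} [Group G] [Finite G]

theorem part1 (G : Type) [Group G] [Finite G] : Nonempty (Preadditive (Ho G)) ∧
    (∀ [Preadditive (Ho G)] p, HasCoproducts.{0} (Pl G p)) ∧
    ∀ (H : Subgroup G) X, ∃ Y, IsPhi H X Y := by
  obtain ⟨M, _, _, _, _, _, _, _, o, _, _, hs, ⟨D⟩⟩ := P241GK.model G
  have := loc D hs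
  have a1 := P241GD.a1 (GG M) (o ⋙ (eqW G).Q)
  refine ⟨a1.pre, fun p => P241GB.b1 a1.cop p, fun H X => ?_⟩
  obtain ⟨P⟩ := (P241GP.p1 G H).1
  exact ⟨_, _, P.ok X⟩

variable [Preadditive (Ho G)] {T : SHCat} {S : Susp T} (I : P241L.IsSH (fg T S)) {p : ℕ}
  (K : ℕ → Rg (fg T S))

theorem acy_iff {V : Subgroup G} (P : PhiF V) (A : Pl G p) (i : ℕ) :
    Acy V p I K A i ↔ IsZero ((K i).ob ⊗ (LI I).obj (P.Φ.obj A.obj.as.obj) : T.C) := by
  refine ⟨fun h => (IsZero.iff_id_eq_zero _).2 (h _ ⟨_, P.ok _⟩), fun h Y hY => ?_⟩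
  obtain ⟨e⟩ := (P241GP.p1 G V).2 _ _ _ hY ⟨_, P.ok _⟩
  exact (IsZero.iff_id_eq_zero _).1
    (h.of_iso (whiskerLeftIso (C := T.C) (K i).ob ((LI I).mapIso e)))

/-- Compact `p`-local genuine `G`-spectra and finite `G`-cell spaces have the same types. -/
theorem cmp (hp : p.Prime) (hK : ∀ i, PLocal (T := T) p (K i).ob) :
    (∀ A : Pl G p, Cpt A → ∃ Z, GFC G Z ∧ ∀ V i,
      Acy V p I K A i ↔ Acyclic (T := T) (K i).ob (S.obj (Z.fix V))) ∧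
    ∀ Z, GFC G Z → ∃ A : Pl G p, Cpt A ∧ ∀ V i,
      Acy V p I K A i ↔ Acyclic (T := T) (K i).ob (S.obj (Z.fix V)) := by
  obtain ⟨M, _, _, _, _, _, _, _, o, _, _, hs, ⟨D⟩⟩ := P241GK.model G
  have := loc D hs
  have a1 := P241GD.a1 (GG M) (o ⋙ (eqW G).Q)
  have := a1.cop
  have a2 := P241GD.a2 (GG M) (o ⋙ (eqW G).Q)
  obtain ⟨_, _, _, _, a3⟩ := a2.tri
  have := a3.tri
  have c1 := P241GC.c1 M
  have i1 := P241GI.i1 G
  have c4 := P241GF.c4 i1 c1 (P241GE.c3 _ i1 c1) a1 a2 a3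
  have := Localization.essSurj (o ⋙ (eqW G).Q) (P251.H.GS.StabInput.piW (GG M))
  have h : ∀ (V : Subgroup G) (i : ℕ), ∃ (P : PhiF V) (Ψ : Ho G ⥤ T.C),
      Nonempty ((o ⋙ (eqW G).Q) ⋙ Ψ ≅ o ⋙ P.Φ ⋙ LI I ⋙ tensorLeft (C := T.C) (K i).ob) ∧
      (∀ (B B' : Ho G) (l : B ⟶ B'), (∀ W, IsCpt W → SIso p W l) → IsIso (Ψ.map l)) ∧
      ∀ A : Pl G p, Acy V p I K A i ↔ IsZero (Ψ.obj A.obj) := by
    intro V i
    obtain ⟨P⟩ := (P241GP.p1 G V).1
    obtain ⟨Ψ, ⟨w⟩, h⟩ := psi D (o ⋙ (eqW G).Q) P I hp (hK i)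
    refine ⟨P, Ψ, ⟨w⟩, h, fun A => (acy_iff I K P A i).trans ?_⟩
    obtain ⟨X, hX⟩ := hs A.obj.as.obj
    have e : (o ⋙ (eqW G).Q).obj X = A.obj := congrArg (eqW G).Q.obj hX
    rw [← hX, ← e]
    exact (w.app X).isZero_iff.symm
  refine ⟨fun A hA => ?_, fun Z hZ => ?_⟩
  · obtain ⟨Z, hZ, h1⟩ := upper (P241GE.c2 _ c1) (P241GE.c3' _ i1 c1) c4 a2 (P241GP.p4 G) D hp S I
      A hA
    refine ⟨Z, hZ, fun V i => ?_⟩
    obtain ⟨P, Ψ, w, h2, h3⟩ := h V i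
    exact (h3 A).trans ((h1 V P _ Ψ (hK i) w h2).trans P241Z.acyclic_iff.symm)
  · obtain ⟨A, hA, h1⟩ := P241GH.lower c4 D hp Z hZ
    refine ⟨A, hA, fun V i => ?_⟩
    obtain ⟨P, Ψ, ⟨w⟩, h2, h3⟩ := h V i
    exact (h3 A).trans ((h1 V P T S I _ Ψ (fun X => ⟨w.app X⟩) h2).trans P241Z.acyclic_iff.symm)

theorem force_iff (hp : p.Prime) (hK : ∀ i, PLocal (T := T) p (K i).ob) (H : Subgroup G)
    (n r : ℕ) :
    P241GX.Force H p I K n r ↔ Forces S (fun i => P241Z.toSt (rA (K i))) H n r := by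
  obtain ⟨h1, h2⟩ := cmp (G := G) I K hp hK
  constructor
  · intro h Z hZ a
    obtain ⟨A, hA, b⟩ := h2 Z hZ
    exact (b ⊤ n).1 (h A hA ((b H (n + r)).2 a))
  · intro h A hA a
    obtain ⟨Z, hZ, b⟩ := h1 A hA
    exact (b ⊤ n).2 (h Z hZ ((b H (n + r)).1 a))

/-- **The chromatic Smith theorem for genuine `G`-spectra.** -/
theorem target : Target := by
  refine ⟨part1, P241L.exists_isSH, fun T I p hp => ?_⟩
  obtain ⟨T, S, rfl⟩ := P241CT.exists_heavy I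
  refine ⟨?_, fun K hK G _ _ _ hG H n => ?_⟩
  · obtain ⟨K, hK⟩ := P241Y.exists_moravaK S hp
    exact ⟨fun i => rG S (K i), fun i => (P241L.morava_iff p i _).mpr (hK i)⟩
  · have := Fact.mk hp
    have hL : LowerBound S p := P241.Final.lowerBound_of_cone S p
      (P241.H399.coneG_of_gfc S p (fun _ _ _ _ _ hX hS => P241.H32.gfc_xt hX hS) P241.H132.xaGFC)
    have hK' : ∀ i, IsMoravaK S p i (P241Z.toSt (rA (K i))) := fun i =>
      P241Z.isMoravaK_iff.mp ((P241L.morava_iff p i _).mp (hK i))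
    obtain ⟨h3, h4⟩ := P241.H891.smith_of_lower S p hL _ hK' G hG H n
    have h5 := force_iff I K hp (fun i => P241Z.pLocal_moravaK hp (hK' i)) H n
    exact ⟨(congrArg sInf (Set.ext h5)).trans h3, fun r => (h5 r).trans (h4 r)⟩

end Vale.Agent.P241GZ
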